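import Vale.Agent.P363.Caloric.Tower

/-!
Mollifications of weak solutions form families of smooth solutions.
-/

noncomputable section

namespace Vale.Agent.P363.Caloric

open MeasureTheory Filter ContinuousLinearMap
open scoped Topology Convolution

/-- Smooth compactly supported kernels. -/
structure IsKernel (ρ : ℝ × ℝ → ℝ) : Prop where
  smooth : ContDiff ℝ ((⊤ : ℕ∞) : WithTop ℕ∞) ρ
  compact : HasCompactSupport ρ

/-- The space derivative of a function of `(t, s)`. -/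
def dsp (ρ : ℝ × ℝ → ℝ) (p : ℝ × ℝ) : ℝ := fderiv ℝ ρ p (0, 1)

/-- The time derivative of a function of `(t, s)`. -/
def dtm (ρ : ℝ × ℝ → ℝ) (p : ℝ × ℝ) : ℝ := fderiv ℝ ρ p (1, 0)

theorem IsKernel.fderiv_apply {ρ : ℝ × ℝ → ℝ} (h : IsKernel ρ) (v : ℝ × ℝ) :
    IsKernel (fun p => fderiv ℝ ρ p v) where
  smooth := (h.smooth.fderiv_right (m := ((⊤ : ℕ∞) : WithTop ℕ∞)) le_rfl).clm_apply contDiff_const
  compact := h.compact.fderiv_apply ℝ v

theorem IsKernel.dsp {ρ : ℝ × ℝ → ℝ} (h : IsKernel ρ) : IsKernel (dsp ρ) := h.fderiv_apply _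

theorem IsKernel.dtm {ρ : ℝ × ℝ → ℝ} (h : IsKernel ρ) : IsKernel (dtm ρ) := h.fderiv_apply _

/-- The iterated space derivative. -/
def dspN : ℕ → (ℝ × ℝ → ℝ) → (ℝ × ℝ → ℝ)
  | 0, ρ => ρ
  | k + 1, ρ => dsp (dspN k ρ)

theorem IsKernel.dspN {ρ : ℝ × ℝ → ℝ} (h : IsKernel ρ) : ∀ k, IsKernel (dspN k ρ)
  | 0 => h
  | k + 1 => (h.dspN k).dsp

theorem tsupport_dspN (ρ : ℝ × ℝ → ℝ) : ∀ k, tsupport (dspN k ρ) ⊆ tsupport ρ
  | 0 => subset_rfl
  | k + 1 => (tsupport_fderiv_apply_subset ℝ _).trans (tsupport_dspN ρ k)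

/-- The mollification of `u` by `ρ`. -/
def mol (u ρ : ℝ × ℝ → ℝ) : ℝ × ℝ → ℝ := ρ ⋆[lsmul ℝ ℝ, volume] u

theorem mol_apply (u ρ : ℝ × ℝ → ℝ) (p : ℝ × ℝ) :
    mol u ρ p = ∫ q, ρ q * u (p - q) := by
  simp [mol, convolution_def]

theorem mol_apply_swap (u ρ : ℝ × ℝ → ℝ) (p : ℝ × ℝ) :
    mol u ρ p = ∫ q, ρ (p - q) * u q := by
  simp [mol, convolution_eq_swap]

variable {u ρ : ℝ × ℝ → ℝ}

theorem hasFDerivAt_mol (hu : LocallyIntegrable u) (h : IsKernel ρ) (p : ℝ × ℝ) :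
    HasFDerivAt (mol u ρ) ((fderiv ℝ ρ ⋆[(lsmul ℝ ℝ).precompL (ℝ × ℝ), volume] u) p) p :=
  h.compact.hasFDerivAt_convolution_left (lsmul ℝ ℝ) (h.smooth.of_le (by simp)) hu p

theorem fderiv_mol (hu : LocallyIntegrable u) (h : IsKernel ρ) (p v : ℝ × ℝ) :
    fderiv ℝ (mol u ρ) p v = mol u (fun q => fderiv ℝ ρ q v) p := by
  rw [(hasFDerivAt_mol hu h p).fderiv, convolution_def, ContinuousLinearMap.integral_apply]
  · simp [mol_apply]
  · exact (h.compact.fderiv ℝ).convolutionExists_left _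
      (h.smooth.continuous_fderiv (by simp)) hu p

theorem differentiable_mol (hu : LocallyIntegrable u) (h : IsKernel ρ) :
    Differentiable ℝ (mol u ρ) := fun p => (hasFDerivAt_mol hu h p).differentiableAt

theorem mol_bound (h : IsKernel ρ) {C R : ℝ} (hC : 0 ≤ C)
    (hR : ∀ q ∈ tsupport ρ, ‖q‖ ≤ R) (hb : ∀ᵐ q, |u q| ≤ C * size q ^ 8) (p : ℝ × ℝ) :
    |mol u ρ p| ≤ C * (1 + |R| + Real.sqrt |R|) ^ 8 * (∫ q, |ρ q|) * size p ^ 8 := by
  have hint : Integrable ρ := h.smooth.continuous.integrable_of_hasCompactSupport h.compact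
  rw [mol_apply, ← Real.norm_eq_abs]
  refine (norm_integral_le_of_norm_le
    (hint.abs.const_mul (C * (1 + |R| + Real.sqrt |R|) ^ 8 * size p ^ 8)) ?_).trans (le_of_eq ?_)
  · have hb' : ∀ᵐ q, |u (p - q)| ≤ C * size (p - q) ^ 8 :=
      (Measure.measurePreserving_sub_left volume p).quasiMeasurePreserving.ae hb
    filter_upwards [hb'] with q hq
    rw [Real.norm_eq_abs, abs_mul, mul_comm]
    by_cases hρ : ρ q = 0
    · simp [hρ]
    refine mul_le_mul_of_nonneg_right (hq.trans ?_) (abs_nonneg _)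
    rw [mul_assoc]
    refine mul_le_mul_of_nonneg_left ?_ hC
    rw [← mul_pow]
    refine pow_le_pow_left₀ (zero_le_one.trans (one_le_size _)) ?_ 8
    have hq' := (hR q (subset_tsupport ρ hρ)).trans (le_abs_self R)
    rw [Prod.norm_def] at hq'
    have h1 : |q.1| ≤ |R| := (le_max_left _ _).trans hq'
    have h2 : |q.2| ≤ |R| := (le_max_right _ _).trans hq'
    have a1 : |p.2 - q.2| ≤ |p.2| + |R| := (abs_sub _ _).trans (by linarith)
    have a2 : Real.sqrt |p.1 - q.1| ≤ Real.sqrt |p.1| + Real.sqrt |R| := by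
      rw [Real.sqrt_le_iff]
      refine ⟨by positivity, ?_⟩
      have e1 := Real.sq_sqrt (abs_nonneg p.1)
      have e2 := Real.sq_sqrt (abs_nonneg R)
      have e3 : |p.1 - q.1| ≤ |p.1| + |R| := (abs_sub _ _).trans (by linarith)
      nlinarith [Real.sqrt_nonneg |p.1|, Real.sqrt_nonneg |R|]
    simp only [size, Prod.fst_sub, Prod.snd_sub]
    nlinarith [abs_nonneg p.2, Real.sqrt_nonneg |p.1|, abs_nonneg R, Real.sqrt_nonneg |R|,
      mul_nonneg (add_nonneg (abs_nonneg R) (Real.sqrt_nonneg |R|))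
        (add_nonneg (abs_nonneg p.2) (Real.sqrt_nonneg |p.1|))]
  · rw [integral_const_mul]
    ring

theorem mol_growth (h : IsKernel ρ) {C : ℝ} (hC : 0 ≤ C)
    (hb : ∀ᵐ q, |u q| ≤ C * size q ^ 8) :
    ∃ C', ∀ p, |mol u ρ p| ≤ C' * size p ^ 8 := by
  obtain ⟨R, hR⟩ := h.compact.isBounded.exists_norm_le
  exact ⟨_, mol_bound h hC hR hb⟩

/-- The mollifications by the space derivatives of a kernel. -/
def molSeq (u ρ : ℝ × ℝ → ℝ) (k : ℕ) : ℝ × ℝ → ℝ := mol u (dspN k ρ)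

theorem molFamily (hu : LocallyIntegrable u) {C : ℝ} (hC : 0 ≤ C)
    (hb : ∀ᵐ q, |u q| ≤ C * size q ^ 8) (h : IsKernel ρ) : Family (molSeq u ρ) where
  diff k := differentiable_mol hu (h.dspN k)
  ds k p := fderiv_mol hu (h.dspN k) p _
  bd k := mol_growth (h.dspN k) hC hb

/-- The mollifications solve the equation where the kernel stays inside the domain. -/
theorem mol_eq {κ : ℝ} {U : Set (ℝ × ℝ)} (hu : LocallyIntegrable u)
    (hw : ∀ η : ℝ × ℝ → ℝ, ContDiff ℝ ((⊤ : ℕ∞) : WithTop ℕ∞) η → HasCompactSupport η →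
      tsupport η ⊆ U → ∫ q, u q * adjHeat κ η q = 0)
    (h : IsKernel ρ) (p : ℝ × ℝ) (hp : ∀ q ∈ tsupport ρ, p - q ∈ U) :
    fderiv ℝ (mol u ρ) p (1, 0) = -κ * mol u (dsp (dsp ρ)) p := by
  have hts : tsupport (fun q => ρ (p - q)) ⊆ U := by
    intro q hq
    have := hp (p - q) (by
      have e : tsupport (fun q => ρ (p - q)) ⊆ (fun q => p - q) ⁻¹' tsupport ρ :=
        closure_minimal (fun q hq => subset_tsupport ρ hq)
          ((isClosed_tsupport ρ).preimage (by fun_prop))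
      exact e hq)
    rwa [sub_sub_cancel] at this
  have hη := hw (fun q => ρ (p - q)) (h.smooth.comp (contDiff_const.sub contDiff_id))
    (h.compact.comp_homeomorph (Homeomorph.subLeft p)) hts
  have hD : ∀ (f : ℝ × ℝ → ℝ), IsKernel f → ∀ q v : ℝ × ℝ,
      fderiv ℝ (fun q => f (p - q)) q v = -fderiv ℝ f (p - q) v := by
    intro f hf q v
    have := ((hf.smooth.differentiable (by simp)) (p - q)).hasFDerivAt.comp q
      ((hasFDerivAt_id q).const_sub p)
    rw [show (fun q => f (p - q)) = f ∘ HSub.hSub p from rfl, this.fderiv]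
    simp
  have hadj : ∀ q, adjHeat κ (fun q => ρ (p - q)) q =
      dtm ρ (p - q) + κ * dsp (dsp ρ) (p - q) := by
    intro q
    have e : (fun q => fderiv ℝ (fun q => ρ (p - q)) q (0, 1)) = fun q => -dsp ρ (p - q) :=
      funext fun q => hD ρ h q _
    unfold adjHeat
    rw [e, hD ρ h q, neg_neg, fderiv_fun_neg, neg_apply, hD _ h.dsp q, neg_neg]
    rfl
  have hi : ∀ f, IsKernel f → Integrable fun q => f (p - q) * u q := fun f hf => by
    have := (hf.compact.convolutionExists_left (lsmul ℝ ℝ) hf.smooth.continuous hu p).integrable_swap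
    simpa using this
  simp only [hadj] at hη
  rw [fderiv_mol hu h]
  change mol u (dtm ρ) p = _
  rw [mol_apply_swap, mol_apply_swap, ← integral_const_mul]
  rw [← sub_eq_zero, ← integral_sub (hi _ h.dtm) ((hi _ h.dsp.dsp).const_mul _), ← hη]
  exact integral_congr_ae (Eventually.of_forall fun q => by ring)

/-- Inside the domain all levels of the family solve the equation. -/
theorem molSeq_eq {κ : ℝ} {U : Set (ℝ × ℝ)} (hu : LocallyIntegrable u)
    (hw : ∀ η : ℝ × ℝ → ℝ, ContDiff ℝ ((⊤ : ℕ∞) : WithTop ℕ∞) η → HasCompactSupport η →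
      tsupport η ⊆ U → ∫ q, u q * adjHeat κ η q = 0)
    (h : IsKernel ρ) (k : ℕ) (p : ℝ × ℝ) (hp : ∀ q ∈ tsupport ρ, p - q ∈ U) :
    fderiv ℝ (molSeq u ρ k) p (1, 0) = -κ * molSeq u ρ (k + 2) p :=
  mol_eq hu hw (h.dspN k) p fun q hq => hp q (tsupport_dspN ρ k hq)

/-- Extension by zero of a function of growth eight on an open set. -/
theorem indicator_props {U : Set (ℝ × ℝ)} (hU : IsOpen U) (hu : LocallyIntegrableOn u U) {C : ℝ}
    (hb : ∀ᵐ q ∂volume.restrict U, |u q| ≤ C * size q ^ 8) :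
    LocallyIntegrable (U.indicator u) ∧ 0 ≤ max C 0 ∧
      ∀ᵐ q, |U.indicator u q| ≤ max C 0 * size q ^ 8 := by
  have hb' : ∀ᵐ q, |U.indicator u q| ≤ max C 0 * size q ^ 8 := by
    filter_upwards [(ae_restrict_iff' hU.measurableSet).1 hb] with q hq
    have h8 : 0 ≤ size q ^ 8 := pow_nonneg (zero_le_one.trans (one_le_size _)) _
    by_cases hqU : q ∈ U
    · rw [Set.indicator_of_mem hqU]
      exact (hq hqU).trans (mul_le_mul_of_nonneg_right (le_max_left _ _) h8)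
    · rw [Set.indicator_of_notMem hqU, abs_zero]
      exact mul_nonneg (le_max_right _ _) h8
  refine ⟨?_, le_max_right _ _, hb'⟩
  refine (((continuous_size.pow 8).const_mul (max C 0)).locallyIntegrable).mono
    ((aestronglyMeasurable_indicator_iff hU.measurableSet).2 hu.aestronglyMeasurable) ?_
  filter_upwards [hb'] with q hq
  rw [Real.norm_eq_abs]
  exact hq.trans (le_abs_self _)

/-- Integrals against test functions do not see the extension. -/
theorem weak_indicator {κ : ℝ} {U : Set (ℝ × ℝ)}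
    (hw : ∀ η : ℝ × ℝ → ℝ, ContDiff ℝ ((⊤ : ℕ∞) : WithTop ℕ∞) η → HasCompactSupport η →
      tsupport η ⊆ U → ∫ q, u q * adjHeat κ η q = 0)
    (η : ℝ × ℝ → ℝ) (h1 : ContDiff ℝ ((⊤ : ℕ∞) : WithTop ℕ∞) η) (h2 : HasCompactSupport η)
    (h3 : tsupport η ⊆ U) : ∫ q, U.indicator u q * adjHeat κ η q = 0 := by
  rw [← hw η h1 h2 h3]
  refine integral_congr_ae (Eventually.of_forall fun q => ?_)
  by_cases hq : q ∈ U
  · simp [Set.indicator_of_mem hq]
  · have a1 : fderiv ℝ η q = 0 := fderiv_of_notMem_tsupport (𝕜 := ℝ) fun h => hq (h3 h)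
    have a2 : fderiv ℝ (fun x => fderiv ℝ η x (0, 1)) q = 0 :=
      fderiv_of_notMem_tsupport (𝕜 := ℝ) fun h => hq (h3 (tsupport_fderiv_apply_subset ℝ _ h))
    simp [adjHeat, a1, a2]

/-- Bumps shrinking to the origin. -/
def bumpSeq (j : ℕ) : ContDiffBump (0 : ℝ × ℝ) where
  rIn := 1 / (2 * ((j : ℝ) + 1))
  rOut := 1 / ((j : ℝ) + 1)
  rIn_pos := by positivity
  rIn_lt_rOut := by
    apply one_div_lt_one_div_of_lt (by positivity)
    linarith [Nat.cast_nonneg (α := ℝ) j]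

theorem isKernel_bumpSeq (j : ℕ) : IsKernel ((bumpSeq j).normed volume) :=
  ⟨(bumpSeq j).contDiff_normed, (bumpSeq j).hasCompactSupport_normed⟩

theorem norm_le_of_mem_bumpSeq {j : ℕ} {q : ℝ × ℝ}
    (hq : q ∈ tsupport ((bumpSeq j).normed volume)) : ‖q‖ ≤ 1 / ((j : ℝ) + 1) := by
  rw [(bumpSeq j).tsupport_normed_eq] at hq
  simpa [bumpSeq] using hq

theorem ae_tendsto_mol (hu : LocallyIntegrable u) :
    ∀ᵐ p, Tendsto (fun j => mol u ((bumpSeq j).normed volume) p) atTop (𝓝 (u p)) := by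
  refine ContDiffBump.ae_convolution_tendsto_right_of_locallyIntegrable (K := 2)
    tendsto_one_div_add_atTop_nhds_zero_nat (Eventually.of_forall fun j => ?_) hu
  simp only [bumpSeq]
  rw [← mul_div_assoc, mul_one, mul_comm (2 : ℝ) ((j : ℝ) + 1), ← div_div]
  field_simp
  rfl

end Vale.Agent.P363.Caloric
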