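import Vale.Agent.P363.Caloric.Poly
import Vale.Agent.P363.Caloric.Mollify

/-!
Liouville theorems and the representation for weak backward caloric functions.
-/

noncomputable section

namespace Vale.Agent.P363.Caloric

open MeasureTheory Filter
open scoped Topology

variable {κ : ℝ}

/-- A caloric polynomial shifted in time is a caloric polynomial. -/
theorem heatPoly_shift (κ : ℝ) (a : Fin 9 → ℝ) (d : ℝ) :
    ∃ a' : Fin 9 → ℝ, ∀ p : ℝ × ℝ,
      ∑ k : Fin 9, a k * heatPoly κ k (p.1 - d, p.2) = ∑ k : Fin 9, a' k * heatPoly κ k p := by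
  set x := κ * d
  refine ⟨![a 0 + 2 * x * a 2 + 12 * x ^ 2 * a 4 + 120 * x ^ 3 * a 6 + 1680 * x ^ 4 * a 8,
    a 1 + 6 * x * a 3 + 60 * x ^ 2 * a 5 + 840 * x ^ 3 * a 7,
    a 2 + 12 * x * a 4 + 180 * x ^ 2 * a 6 + 3360 * x ^ 3 * a 8,
    a 3 + 20 * x * a 5 + 420 * x ^ 2 * a 7,
    a 4 + 30 * x * a 6 + 840 * x ^ 2 * a 8,
    a 5 + 42 * x * a 7, a 6 + 56 * x * a 8, a 7, a 8], fun p => ?_⟩
  simp [Fin.sum_univ_succ, heatPoly, Finset.sum_range_succ, Nat.factorial, x]
  ring

theorem continuous_heatPoly (κ : ℝ) (k : ℕ) : Continuous (heatPoly κ k) := by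
  unfold heatPoly; fun_prop

theorem size_add_le (p a : ℝ × ℝ) (ha : a.2 = 0) :
    size (p + a) ≤ (1 + Real.sqrt |a.1|) * size p := by
  have h2 : Real.sqrt |p.1 + a.1| ≤ Real.sqrt |p.1| + Real.sqrt |a.1| := by
    rw [Real.sqrt_le_iff]
    refine ⟨by positivity, ?_⟩
    have e1 := Real.sq_sqrt (abs_nonneg p.1)
    have e2 := Real.sq_sqrt (abs_nonneg a.1)
    nlinarith [abs_add_le p.1 a.1, Real.sqrt_nonneg |p.1|, Real.sqrt_nonneg |a.1|]
  have h3 := one_le_size p
  simp only [size, Prod.fst_add, Prod.snd_add, ha, add_zero] at h3 ⊢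
  nlinarith [Real.sqrt_nonneg |a.1|, abs_nonneg p.2, Real.sqrt_nonneg |p.1|]

/-- A mollification, moved so that it solves the equation on `t ≥ 0`. -/
theorem mol_poly (hκ : 0 < κ) {t₀ : ℝ} {u ρ : ℝ × ℝ → ℝ} (hu : LocallyIntegrable u) {C : ℝ}
    (hC : 0 ≤ C) (hb : ∀ᵐ q, |u q| ≤ C * size q ^ 8)
    (hw : ∀ η : ℝ × ℝ → ℝ, ContDiff ℝ ((⊤ : ℕ∞) : WithTop ℕ∞) η → HasCompactSupport η →
      tsupport η ⊆ {p | t₀ < p.1} → ∫ q, u q * adjHeat κ η q = 0)
    (hρ : IsKernel ρ) {r : ℝ} (hr : 0 < r) (hR : ∀ q ∈ tsupport ρ, ‖q‖ ≤ r) :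
    ∃ a : Fin 9 → ℝ, ∀ p : ℝ × ℝ, t₀ + 2 * r ≤ p.1 →
      mol u ρ p = ∑ k : Fin 9, a k * heatPoly κ k p := by
  set d : ℝ × ℝ := (t₀ + 2 * r, 0)
  have hF := molFamily hu hC hb hρ
  have hT : Tower κ fun k p => molSeq u ρ k (p + d) :=
    { diff := fun k => (hF.diff k).comp (differentiable_id.add_const d)
      ds := fun k p => by rw [fderiv_comp_add_right]; exact hF.ds k _
      bd := fun k => by
        obtain ⟨C', hC'⟩ := hF.bd k
        have h0 : 0 ≤ C' := by
          have := hC' (0, 0)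
          have h8 : 0 < size (0, 0) ^ 8 := pow_pos (one_pos.trans_le (one_le_size _)) 8
          nlinarith [abs_nonneg (molSeq u ρ k (0, 0))]
        refine ⟨C' * (1 + Real.sqrt |d.1|) ^ 8, fun p => (hC' _).trans ?_⟩
        rw [mul_assoc, ← mul_pow]
        exact mul_le_mul_of_nonneg_left (pow_le_pow_left₀ (zero_le_one.trans (one_le_size _))
          (size_add_le p d rfl) 8) h0
      dt := fun k p hp => by
        rw [fderiv_comp_add_right]
        refine molSeq_eq hu hw hρ k _ fun q hq => ?_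
        have := (norm_fst_le q).trans (hR q hq)
        rw [Real.norm_eq_abs] at this
        show t₀ < (p + d - q).1
        simp only [Prod.fst_sub, Prod.fst_add, d]
        linarith [le_abs_self q.1] }
  obtain ⟨a, ha⟩ := heatPoly_shift κ
    (fun k : Fin 9 => molSeq u ρ k ((0, 0) + d) / (k : ℕ).factorial) (t₀ + 2 * r)
  refine ⟨a, fun p hp => ?_⟩
  rw [← ha p]
  have h := hT.eq_poly hκ (t := p.1 - (t₀ + 2 * r)) (by linarith) p.2
  simp only [d, Prod.mk_add_mk, sub_add_cancel, add_zero] at h ⊢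
  exact h

/-- Liouville on `t > t₀`. -/
theorem liouville_from (κ t₀ : ℝ) (hκ : 0 < κ) (u : ℝ × ℝ → ℝ)
    (hu : IsBackCaloricOn κ {p | t₀ < p.1} u) {C : ℝ}
    (hg : ∀ᵐ p ∂volume.restrict {p : ℝ × ℝ | t₀ < p.1}, |u p| ≤ C * size p ^ 8) :
    ∃ a : Fin 9 → ℝ, ∀ᵐ p ∂volume.restrict {p : ℝ × ℝ | t₀ < p.1},
      u p = ∑ k : Fin 9, a k * heatPoly κ k p := by
  set U : Set (ℝ × ℝ) := {p | t₀ < p.1}
  have hU : IsOpen U := isOpen_lt continuous_const continuous_fst
  obtain ⟨hloc, hC, hb⟩ := indicator_props hU hu.1 hg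
  have hw := weak_indicator hu.2
  choose a ha using fun j : ℕ => mol_poly hκ hloc hC hb hw (isKernel_bumpSeq j)
    (r := 1 / ((j : ℝ) + 1)) (by positivity) fun q hq => norm_le_of_mem_bumpSeq hq
  set G := {p : ℝ × ℝ | p ∈ U ∧
    Tendsto (fun j => mol (U.indicator u) ((bumpSeq j).normed volume) p) atTop (𝓝 (u p))}
  let E : (Fin 9 → ℝ) →ₗ[ℝ] (G → ℝ) :=
    { toFun := fun a g => ∑ k : Fin 9, a k * heatPoly κ k g
      map_add' := fun a b => by
        funext g
        simp [add_mul, Finset.sum_add_distrib]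
      map_smul' := fun c a => by
        funext g
        simp [Finset.mul_sum, mul_assoc] }
  have hlim : Tendsto (fun j => E (a j)) atTop (𝓝 fun g : G => u g) := by
    refine tendsto_pi_nhds.2 fun g => (g.2.2).congr' ?_
    have hr : Tendsto (fun j : ℕ => t₀ + 2 * (1 / ((j : ℝ) + 1))) atTop (𝓝 t₀) := by
      simpa using (tendsto_one_div_add_atTop_nhds_zero_nat.const_mul (2 : ℝ)).const_add t₀
    filter_upwards [hr.eventually (eventually_le_nhds g.2.1)] with j hj
    exact ha j g hj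
  obtain ⟨c, hc⟩ : ∃ c, E c = fun g : G => u g :=
    (Submodule.closed_of_finiteDimensional (LinearMap.range E)).mem_of_tendsto hlim
      (Eventually.of_forall fun j => LinearMap.mem_range_self E (a j))
  refine ⟨c, ?_⟩
  rw [ae_restrict_iff' hU.measurableSet]
  filter_upwards [ae_tendsto_mol hloc] with p hp hpU
  rw [Set.indicator_of_mem hpU] at hp
  exact (congrFun hc ⟨p, hpU, hp⟩).symm

theorem liouville : LiouvilleStmt := by
  intro κ hκ u hu hg
  obtain ⟨C, hC⟩ := hg
  refine liouville_from κ 0 hκ u ⟨hu.1, fun η h1 h2 h3 => hu.2 η ⟨h1, h2, h3⟩⟩ (C := C) ?_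
  refine (ae_restrict_iff' (isOpen_lt continuous_const continuous_fst).measurableSet).2 ?_
  filter_upwards [(ae_restrict_iff' (isOpen_lt continuous_const continuous_fst).measurableSet).1 hC]
    with p hp hpU
  rw [size, abs_of_pos hpU]
  exact hp hpU

theorem liouvilleFrom : LiouvilleFromStmt := by
  intro κ t₀ hκ ht₀ u hu hg
  obtain ⟨C, hC⟩ := hg
  refine liouville_from κ t₀ hκ u hu (C := C) ?_
  refine (ae_restrict_iff' (isOpen_lt continuous_const continuous_fst).measurableSet).2 ?_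
  filter_upwards [(ae_restrict_iff' (isOpen_lt continuous_const continuous_fst).measurableSet).1 hC]
    with p hp hpU
  rw [size, abs_of_pos (ht₀.trans_lt hpU)]
  exact hp hpU

theorem representation : RepStmt := by
  intro κ t₁ t₂ hκ u hu hc C hb τ σ s h1 hτσ h2
  set U : Set (ℝ × ℝ) := Set.Ioo t₁ t₂ ×ˢ Set.univ
  have hU : IsOpen U := isOpen_Ioo.prod isOpen_univ
  obtain ⟨hloc, hC, hb'⟩ := indicator_props hU hu.1
    (C := C) ((ae_restrict_iff' hU.measurableSet).2 (Eventually.of_forall fun q hq => hb q hq))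
  have hw := weak_indicator hu.2
  have hconv : ∀ x : ℝ × ℝ, x ∈ U →
      Tendsto (fun j => mol (U.indicator u) ((bumpSeq j).normed volume) x) atTop (𝓝 (u x)) := by
    intro x hx
    refine ContDiffBump.convolution_tendsto_right tendsto_one_div_add_atTop_nhds_zero_nat
      (Eventually.of_forall fun _ => hloc.aestronglyMeasurable) ?_ tendsto_const_nhds
    have : Tendsto (U.indicator u) (𝓝 x) (𝓝 (u x)) :=
      ((hc.continuousAt (hU.mem_nhds hx)).tendsto).congr'
        (by filter_upwards [hU.mem_nhds hx] with y hy; rw [Set.indicator_of_mem hy])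
    exact this.comp tendsto_snd
  have hev : ∀ᶠ j : ℕ in atTop, 1 / ((j : ℝ) + 1) < τ - t₁ ∧ 1 / ((j : ℝ) + 1) < t₂ - σ :=
    (tendsto_one_div_add_atTop_nhds_zero_nat.eventually (eventually_lt_nhds (sub_pos.2 h1))).and
      (tendsto_one_div_add_atTop_nhds_zero_nat.eventually (eventually_lt_nhds (sub_pos.2 h2)))
  set c := Real.sqrt (2 * κ * (σ - τ))
  have hrep : ∀ᶠ j : ℕ in atTop, mol (U.indicator u) ((bumpSeq j).normed volume) (τ, s) =
      ∫ z, mol (U.indicator u) ((bumpSeq j).normed volume) (σ, s + c * z)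
        ∂ProbabilityTheory.gaussianReal 0 1 := by
    filter_upwards [hev] with j hj
    refine (molFamily hloc hC hb' (isKernel_bumpSeq j)).rep hκ 0 hτσ (fun p hp1 hp2 => ?_) s
    refine molSeq_eq hloc hw (isKernel_bumpSeq j) 0 p fun q hq => ?_
    have hq' := (norm_fst_le q).trans (norm_le_of_mem_bumpSeq hq)
    rw [Real.norm_eq_abs] at hq'
    refine ⟨⟨?_, ?_⟩, trivial⟩ <;> simp only [Prod.fst_sub] <;>
      linarith [abs_le.1 hq', hj.1, hj.2]
  refine tendsto_nhds_unique ((hconv (τ, s) ⟨⟨h1, hτσ.trans_lt h2⟩, trivial⟩).congr' hrep) ?_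
  have hB : ∀ (j : ℕ) (p : ℝ × ℝ), |mol (U.indicator u) ((bumpSeq j).normed volume) p| ≤
      max C 0 * 3 ^ 8 * size p ^ 8 := by
    intro j p
    refine (mol_bound (isKernel_bumpSeq j) hC (fun q hq => norm_le_of_mem_bumpSeq hq) hb' p).trans ?_
    have h : 1 / ((j : ℝ) + 1) ≤ 1 := by
      rw [div_le_one (by positivity)]
      linarith [Nat.cast_nonneg (α := ℝ) j]
    have hR : 1 + |1 / ((j : ℝ) + 1)| + Real.sqrt |1 / ((j : ℝ) + 1)| ≤ 3 := by
      rw [abs_of_nonneg (by positivity)]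
      have := Real.sqrt_le_one.2 h
      linarith
    have hI : ∫ q, |(bumpSeq j).normed volume q| = 1 := by
      simp only [abs_of_nonneg ((bumpSeq j).nonneg_normed _)]
      exact (bumpSeq j).integral_normed
    rw [hI, mul_one]
    have := pow_nonneg (zero_le_one.trans (one_le_size p)) 8
    gcongr
  refine tendsto_integral_filter_of_dominated_convergence
    (fun z => max C 0 * 3 ^ 8 * ((|c| + 1) * size (σ, s)) ^ 8 * (1 + |z|) ^ 8)
    (Eventually.of_forall fun j => (((differentiable_mol hloc (isKernel_bumpSeq j)).continuous).comp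
      (by fun_prop)).aestronglyMeasurable)
    (Eventually.of_forall fun j => Eventually.of_forall fun z => ?_)
    ((integrable_pow_gauss 8).const_mul _) (Eventually.of_forall fun z => ?_)
  · rw [Real.norm_eq_abs]
    refine (hB j _).trans ?_
    rw [mul_assoc _ (((|c| + 1) * size (σ, s)) ^ 8), ← mul_pow]
    refine mul_le_mul_of_nonneg_left (pow_le_pow_left₀ (zero_le_one.trans (one_le_size _))
      (size_heat_le (by linarith [abs_nonneg c]) (by linarith [abs_nonneg c])) 8) (by positivity)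
  · exact hconv _ ⟨⟨lt_of_lt_of_le h1 hτσ, h2⟩, trivial⟩

end Vale.Agent.P363.Caloric
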