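import Vale.Agent.P363.Caloric.Tower

/-!
Derivative decay along a tower, and the resulting polynomial form.
-/

noncomputable section

namespace Vale.Agent.P363.Caloric

open MeasureTheory ProbabilityTheory Filter
open scoped Topology

variable {κ : ℝ} {W : ℕ → ℝ × ℝ → ℝ}

/-- The constant of one derivative step. -/
def stepBound (κ : ℝ) (a : ℕ) : ℝ :=
  (4 + Real.sqrt (2 * κ)) ^ a * (∫ z, (1 + |z|) ^ (a + 1) ∂gaussianReal 0 1) / Real.sqrt (2 * κ)

theorem Tower.grad_bound (hκ : 0 < κ) (h : Tower κ W) {k a : ℕ} {C : ℝ} (hC : 0 ≤ C)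
    (hb : ∀ p : ℝ × ℝ, 0 ≤ p.1 → |W k p| ≤ C * size p ^ a) {τ : ℝ} (hτ : 0 ≤ τ) (s : ℝ)
    {X : ℝ} (hX : size (τ, s) ≤ X) :
    |W (k + 1) (τ, s)| ≤ C * stepBound κ a * X ^ a / X := by
  have hX1 : 1 ≤ X := (one_le_size _).trans hX
  set σ := τ + X ^ 2 with hσd
  have hσ : τ ≤ σ := le_add_of_nonneg_right (sq_nonneg X)
  set c := Real.sqrt (2 * κ * (σ - τ)) with hcd
  have hc : c = Real.sqrt (2 * κ) * X := by
    rw [hcd, hσd, add_sub_cancel_left, Real.sqrt_mul (by linarith), Real.sqrt_sq (by linarith)]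
  have hk : 0 < Real.sqrt (2 * κ) := Real.sqrt_pos.2 (by linarith)
  have hc0 : 0 < c := by rw [hc]; positivity
  have hsz : ∀ z : ℝ, size (σ, s + c * z) ≤ (4 + Real.sqrt (2 * κ)) * X * (1 + |z|) := by
    intro z
    have h1 : |s + c * z| ≤ |s| + c * |z| := by
      refine (abs_add_le _ _).trans (add_le_add le_rfl (le_of_eq ?_))
      rw [abs_mul, abs_of_pos hc0]
    have hs : |s| ≤ X := by
      refine le_trans ?_ hX
      simp only [size]
      linarith [Real.sqrt_nonneg |τ|]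
    have ht : Real.sqrt |τ| ≤ X := by
      refine le_trans ?_ hX
      simp only [size]
      linarith [abs_nonneg s]
    have h2 : Real.sqrt |σ| ≤ 2 * X := by
      rw [Real.sqrt_le_iff]
      refine ⟨by linarith, ?_⟩
      have : |τ| ≤ X ^ 2 := by
        calc |τ| = Real.sqrt |τ| ^ 2 := (Real.sq_sqrt (abs_nonneg τ)).symm
          _ ≤ X ^ 2 := pow_le_pow_left₀ (Real.sqrt_nonneg _) ht 2
      rw [abs_of_nonneg (hτ.trans hσ)]
      rw [abs_of_nonneg hτ] at this
      nlinarith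
    simp only [size]
    rw [hc] at h1 ⊢
    nlinarith [abs_nonneg z, mul_nonneg (show (0 : ℝ) ≤ X by linarith) (abs_nonneg z)]
  have e := h.rep hκ (k + 1) hτ hσ s
  rw [← hcd] at e
  have hib := h.ibp k σ s c
  have hval : W (k + 1) (τ, s) = (∫ z, z * W k (σ, s + c * z) ∂gaussianReal 0 1) / c := by
    rw [hib, ← e, mul_div_cancel_left₀ _ hc0.ne']
  rw [hval, abs_div, abs_of_pos hc0, div_le_iff₀ hc0]
  refine (abs_integral_le_integral_abs).trans ((integral_mono (h.integrable_mul_comp k σ s c).abs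
    ((integrable_pow_gauss (a + 1)).const_mul (C * ((4 + Real.sqrt (2 * κ)) * X) ^ a))
    fun z => ?_).trans (le_of_eq ?_))
  · simp only [abs_mul]
    calc |z| * |W k (σ, s + c * z)| ≤ (1 + |z|) * (C * size (σ, s + c * z) ^ a) :=
          mul_le_mul (by linarith) (hb _ (hτ.trans hσ)) (abs_nonneg _) (by positivity)
      _ ≤ (1 + |z|) * (C * ((4 + Real.sqrt (2 * κ)) * X * (1 + |z|)) ^ a) := by
          refine mul_le_mul_of_nonneg_left (mul_le_mul_of_nonneg_left ?_ hC) (by positivity)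
          exact pow_le_pow_left₀ (zero_le_one.trans (one_le_size _)) (hsz z) a
      _ = _ := by rw [mul_pow _ (1 + |z|)]; ring
  · rw [integral_const_mul, stepBound, hc, mul_pow]
    field_simp

theorem stepBound_nonneg (κ : ℝ) (a : ℕ) : 0 ≤ stepBound κ a := by
  refine div_nonneg (mul_nonneg (pow_nonneg (by positivity) _) (integral_nonneg fun z => ?_))
    (Real.sqrt_nonneg _)
  positivity

theorem Tower.deriv_bound (hκ : 0 < κ) (h : Tower κ W) : ∀ k ≤ 8, ∃ C, 0 ≤ C ∧
    ∀ p : ℝ × ℝ, 0 ≤ p.1 → |W k p| ≤ C * size p ^ (8 - k) := by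
  intro k
  induction k with
  | zero =>
    intro _
    obtain ⟨C, hC⟩ := h.bd 0
    exact ⟨max C 0, le_max_right _ _, fun p _ => (hC p).trans (mul_le_mul_of_nonneg_right
      (le_max_left _ _) (pow_nonneg (zero_le_one.trans (one_le_size _)) _))⟩
  | succ k ih =>
    intro hk
    obtain ⟨C, hC, hb⟩ := ih (by omega)
    refine ⟨C * stepBound κ (8 - k), mul_nonneg hC (stepBound_nonneg _ _), fun p hp => ?_⟩
    refine (h.grad_bound hκ hC hb hp p.2 le_rfl).trans (le_of_eq ?_)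
    have hne : size p ≠ 0 := (one_pos.trans_le (one_le_size _)).ne'
    have e : 8 - k = 8 - (k + 1) + 1 := by omega
    conv_lhs => enter [1, 2, 2]; rw [e]
    rw [pow_succ]
    field_simp

theorem Tower.ninth (hκ : 0 < κ) (h : Tower κ W) {t : ℝ} (ht : 0 ≤ t) (s : ℝ) :
    W 9 (t, s) = 0 := by
  obtain ⟨C, hC, hb⟩ := h.deriv_bound hκ 8 le_rfl
  have h1 : ∀ᶠ X : ℝ in atTop, |W 9 (t, s)| ≤ C * stepBound κ 0 / X := by
    filter_upwards [eventually_ge_atTop (size (t, s))] with X hX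
    simpa using h.grad_bound hκ hC (a := 0) (by simpa using hb) ht s hX
  exact abs_nonpos_iff.1 (ge_of_tendsto (tendsto_const_nhds.div_atTop tendsto_id) h1)

theorem Tower.vanish (hκ : 0 < κ) (h : Tower κ W) : ∀ (j : ℕ) {t : ℝ}, 0 ≤ t → ∀ s,
    W (9 + j) (t, s) = 0
  | 0, t, ht, s => h.ninth hκ ht s
  | j + 1, t, ht, s => by
    have h1 := h.hasDerivAt_space (9 + j) t s
    have h2 : HasDerivAt (fun x => W (9 + j) (t, x)) 0 s := by
      rw [show (fun x => W (9 + j) (t, x)) = fun _ => (0 : ℝ) from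
        funext fun x => h.vanish hκ j ht x]
      exact hasDerivAt_const s 0
    exact h1.unique h2

/-- The value of the `k`-th space derivative on the axis `s = 0`. -/
def axisVal (κ : ℝ) (b : ℕ → ℝ) (k : ℕ) (t : ℝ) : ℝ :=
  ∑ j ∈ Finset.range 5, (-κ * t) ^ j / j.factorial * b (k + 2 * j)

theorem hasDerivAt_axisVal (κ : ℝ) (b : ℕ → ℝ) (k : ℕ) (t : ℝ) (hk : b (k + 10) = 0) :
    HasDerivAt (axisVal κ b k) (-κ * axisVal κ b (k + 2) t) t := by
  have := HasDerivAt.fun_sum fun j (_ : j ∈ Finset.range 5) =>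
    ((((hasDerivAt_id t).const_mul (-κ)).pow j).div_const (j.factorial : ℝ)).mul_const (b (k + 2 * j))
  refine this.congr_deriv ?_
  simp [axisVal, Finset.sum_range_succ, add_assoc, hk, Nat.factorial]
  ring

theorem Tower.axis (hκ : 0 < κ) (h : Tower κ W) : ∀ (d k : ℕ), 9 ≤ k + d → ∀ {t : ℝ}, 0 ≤ t →
    W k (t, 0) = axisVal κ (fun n => W n (0, 0)) k t
  | 0, k, hk, t, ht => by
    obtain ⟨j, rfl⟩ := Nat.exists_eq_add_of_le (show 9 ≤ k by omega)
    rw [h.vanish hκ j ht, axisVal, Finset.sum_eq_zero]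
    intro i _
    rw [show 9 + j + 2 * i = 9 + (j + 2 * i) by omega, h.vanish hκ (j + 2 * i) le_rfl, mul_zero]
  | d + 1, k, hk, t, ht => by
    rcases eq_or_lt_of_le ht with rfl | htp
    · simp [axisVal, Finset.sum_range_succ]
    have hz : W (k + 10) (0, 0) = 0 := by
      rw [show k + 10 = 9 + (k + 1) by omega]
      exact h.vanish hκ _ le_rfl _
    have hd : ∀ x ∈ Set.Icc 0 t,
        HasDerivAt (fun x => W k (x, 0) - axisVal κ (fun n => W n (0, 0)) k x) 0 x := by
      intro x hx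
      refine ((h.hasDerivAt_time k hx.1 0).sub (hasDerivAt_axisVal κ _ k x hz)).congr_deriv ?_
      rw [h.axis hκ d (k + 2) (by omega) hx.1, sub_self]
    obtain ⟨y, -, he⟩ := exists_hasDerivAt_eq_slope
      (fun x => W k (x, 0) - axisVal κ (fun n => W n (0, 0)) k x) (fun _ => 0) htp
      (fun x hx => (hd x hx).continuousAt.continuousWithinAt) fun x hx => hd x ⟨hx.1.le, hx.2.le⟩
    rw [eq_div_iff (sub_pos.2 htp).ne', zero_mul] at he
    have h0 : W k (0, 0) = axisVal κ (fun n => W n (0, 0)) k 0 := by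
      simp [axisVal, Finset.sum_range_succ]
    linarith

/-- The sum of the Taylor series in `s`. -/
def taylor8 (a : ℕ → ℝ) (k : ℕ) (s : ℝ) : ℝ :=
  ∑ i ∈ Finset.range 9, s ^ i / i.factorial * a (k + i)

theorem hasDerivAt_taylor8 (a : ℕ → ℝ) (k : ℕ) (s : ℝ) (hk : a (k + 9) = 0) :
    HasDerivAt (taylor8 a k) (taylor8 a (k + 1) s) s := by
  have := HasDerivAt.fun_sum fun i (_ : i ∈ Finset.range 9) =>
    (((hasDerivAt_id s).pow i).div_const (i.factorial : ℝ)).mul_const (a (k + i))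
  refine this.congr_deriv ?_
  simp [taylor8, Finset.sum_range_succ, add_assoc, hk, Nat.factorial]
  ring

theorem Tower.taylor (hκ : 0 < κ) (h : Tower κ W) {t : ℝ} (ht : 0 ≤ t) : ∀ (d k : ℕ),
    9 ≤ k + d → ∀ s, W k (t, s) = taylor8 (fun n => W n (t, 0)) k s
  | 0, k, hk, s => by
    obtain ⟨j, rfl⟩ := Nat.exists_eq_add_of_le (show 9 ≤ k by omega)
    rw [h.vanish hκ j ht, taylor8, Finset.sum_eq_zero]
    intro i _
    rw [add_assoc, h.vanish hκ (j + i) ht, mul_zero]
  | d + 1, k, hk, s => by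
    have hz : W (k + 9) (t, 0) = 0 := by rw [add_comm]; exact h.vanish hκ _ ht _
    have hd : ∀ x, HasDerivAt (fun x => W k (t, x) - taylor8 (fun n => W n (t, 0)) k x) 0 x := by
      intro x
      refine ((h.hasDerivAt_space k t x).sub (hasDerivAt_taylor8 _ k x hz)).congr_deriv ?_
      rw [h.taylor hκ ht d (k + 1) (by omega) x, sub_self]
    have := is_const_of_deriv_eq_zero (fun x => (hd x).differentiableAt)
      (fun x => (hd x).deriv) s 0
    have h0 : taylor8 (fun n => W n (t, 0)) k 0 = W k (t, 0) := by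
      simp [taylor8, Finset.sum_range_succ]
    linarith

/-- The polynomial form. -/
theorem Tower.eq_poly (hκ : 0 < κ) (h : Tower κ W) {t : ℝ} (ht : 0 ≤ t) (s : ℝ) :
    W 0 (t, s) = ∑ k : Fin 9, W k (0, 0) / (k : ℕ).factorial * heatPoly κ k (t, s) := by
  rw [h.taylor hκ ht 9 0 (by norm_num) s]
  simp only [taylor8, fun n => h.axis hκ 9 n (show 9 ≤ n + 9 by omega) ht, zero_add]
  rw [Fin.sum_univ_eq_sum_range (fun k => W k (0, 0) / k.factorial * heatPoly κ k (t, s)) 9]
  have hz : ∀ n, 9 ≤ n → W n (0, 0) = 0 := fun n hn => by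
    obtain ⟨j, rfl⟩ := Nat.exists_eq_add_of_le hn
    exact h.vanish hκ j le_rfl _
  simp [axisVal, heatPoly, Finset.sum_range_succ, hz, Nat.factorial]
  ring

end Vale.Agent.P363.Caloric
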