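import Vale.Agent.P363.Caloric.Main

/-!
Even solutions with prescribed trace on `s = 0`, and the signs of the profile.
-/

noncomputable section

namespace Vale.Agent.P363.Caloric

open MeasureTheory Filter
open scoped Topology

variable {κ : ℝ}

theorem eq_poly_of_continuousOn (hκ : 0 < κ) {u : ℝ × ℝ → ℝ} (hu : IsBackCaloric κ u)
    (hg : HasGrowth8 u) (hc : ContinuousOn u upper) :
    ∃ a : Fin 9 → ℝ, ∀ p ∈ upper, u p = ∑ k : Fin 9, a k * heatPoly κ k p := by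
  obtain ⟨a, ha⟩ := liouville κ hκ u hu hg
  exact ⟨a, Measure.eqOn_open_of_ae_eq ha (isOpen_lt continuous_const continuous_fst) hc
    (continuous_finsetSum (Finset.univ : Finset (Fin 9)) fun k _ =>
      (continuous_heatPoly κ k).const_mul (a k)).continuousOn⟩

theorem even_coeff {x c : ℝ} (hx : x ≠ 0) {b0 b2 b4 b6 b8 : ℝ}
    (E0 : ∀ t : ℝ, 0 < t → b0 - 2 * x * t * b2 + 12 * (x * t) ^ 2 * b4 - 120 * (x * t) ^ 3 * b6 +
      1680 * (x * t) ^ 4 * b8 = c * t ^ 4) :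
    b0 = 0 ∧ b2 = 0 ∧ b4 = 0 ∧ b6 = 0 ∧ 1680 * x ^ 4 * b8 = c := by
  have e1 := E0 1 one_pos
  have e2 := E0 2 two_pos
  have e3 := E0 3 (by norm_num)
  have e4 := E0 4 (by norm_num)
  have e5 := E0 5 (by norm_num)
  have ha0 : b0 = 0 := by linear_combination 5 * e1 - 10 * e2 + 10 * e3 - 5 * e4 + e5
  have ha2 : b2 = 0 := by
    have h : -2 * x * b2 = 0 := by
      linear_combination
        (-77 / 12) * e1 + (107 / 6) * e2 - (39 / 2) * e3 + (61 / 6) * e4 - (25 / 12) * e5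
    simpa [hx] using h
  have ha4 : b4 = 0 := by
    have h : 12 * x ^ 2 * b4 = 0 := by
      linear_combination
        (71 / 24) * e1 - (59 / 6) * e2 + (49 / 4) * e3 - (41 / 6) * e4 + (35 / 24) * e5
    simpa [hx] using h
  have ha6 : b6 = 0 := by
    have h : -120 * x ^ 3 * b6 = 0 := by
      linear_combination
        (-7 / 12) * e1 + (13 / 6) * e2 - 3 * e3 + (11 / 6) * e4 - (5 / 12) * e5
    simpa [hx] using h
  refine ⟨ha0, ha2, ha4, ha6, ?_⟩
  simp only [ha0, ha2, ha4, ha6] at e1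
  linear_combination e1

theorem odd_coeff {x b1 b3 b5 b7 : ℝ}
    (O : ∀ t s : ℝ, 0 < t → b1 * s + b3 * (s ^ 3 - 6 * x * t * s) +
      b5 * (s ^ 5 - 20 * x * t * s ^ 3 + 60 * (x * t) ^ 2 * s) +
      b7 * (s ^ 7 - 42 * x * t * s ^ 5 + 420 * (x * t) ^ 2 * s ^ 3 - 840 * (x * t) ^ 3 * s) = 0) :
    b1 = 0 ∧ b3 = 0 ∧ b5 = 0 ∧ b7 = 0 := by
  have hO : ∀ s : ℝ, b1 * s + b3 * s ^ 3 + b5 * s ^ 5 + b7 * s ^ 7 = 0 := by
    intro s
    have hl : Tendsto (fun t : ℝ => b1 * s + b3 * (s ^ 3 - 6 * x * t * s) +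
        b5 * (s ^ 5 - 20 * x * t * s ^ 3 + 60 * (x * t) ^ 2 * s) +
        b7 * (s ^ 7 - 42 * x * t * s ^ 5 + 420 * (x * t) ^ 2 * s ^ 3 - 840 * (x * t) ^ 3 * s))
        (𝓝[>] (0 : ℝ)) (𝓝 (b1 * s + b3 * s ^ 3 + b5 * s ^ 5 + b7 * s ^ 7)) := by
      refine (Continuous.tendsto' (by fun_prop) _ _ ?_).mono_left nhdsWithin_le_nhds
      ring
    exact tendsto_nhds_unique hl (tendsto_const_nhds.congr' (by
      filter_upwards [self_mem_nhdsWithin] with t ht
      exact (O t s ht).symm))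
  have f1 := hO 1
  have f2 := hO 2
  have f3 := hO 3
  have f4 := hO 4
  refine ⟨?_, ?_, ?_, ?_⟩
  · linear_combination (8 / 5) * f1 - (2 / 5) * f2 + (8 / 105) * f3 - (1 / 140) * f4
  · linear_combination (-61 / 90) * f1 + (169 / 360) * f2 - (1 / 10) * f3 + (7 / 720) * f4
  · linear_combination (29 / 360) * f1 - (13 / 180) * f2 + (1 / 40) * f3 - (1 / 360) * f4
  · linear_combination (-1 / 360) * f1 + (1 / 360) * f2 - (1 / 840) * f3 + (1 / 5040) * f4

theorem poly_expand (κ : ℝ) (a : Fin 9 → ℝ) (t s : ℝ) :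
    ∑ k : Fin 9, a k * heatPoly κ k (t, s) =
      a 0 + a 1 * s + a 2 * (s ^ 2 - 2 * κ * t) + a 3 * (s ^ 3 - 6 * κ * t * s) +
      a 4 * (s ^ 4 - 12 * κ * t * s ^ 2 + 12 * (κ * t) ^ 2) +
      a 5 * (s ^ 5 - 20 * κ * t * s ^ 3 + 60 * (κ * t) ^ 2 * s) +
      a 6 * (s ^ 6 - 30 * κ * t * s ^ 4 + 180 * (κ * t) ^ 2 * s ^ 2 - 120 * (κ * t) ^ 3) +
      a 7 * (s ^ 7 - 42 * κ * t * s ^ 5 + 420 * (κ * t) ^ 2 * s ^ 3 - 840 * (κ * t) ^ 3 * s) +
      a 8 * (s ^ 8 - 56 * κ * t * s ^ 6 + 840 * (κ * t) ^ 2 * s ^ 4 -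
        3360 * (κ * t) ^ 3 * s ^ 2 + 1680 * (κ * t) ^ 4) := by
  simp [Fin.sum_univ_succ, heatPoly, Finset.sum_range_succ, Nat.factorial]
  ring

theorem trace : TraceStmt := by
  intro κ hκ u hu hg hc heven c htr p hp
  obtain ⟨a, ha⟩ := eq_poly_of_continuousOn hκ hu hg hc
  have hv : ∀ t s : ℝ, 0 < t → u (t, s) = _ := fun t s ht => (ha (t, s) ht).trans (poly_expand κ a t s)
  obtain ⟨a0, a2, a4, a6, a8⟩ := even_coeff hκ.ne' (c := c)
      (b0 := a 0) (b2 := a 2) (b4 := a 4) (b6 := a 6) (b8 := a 8) fun t ht => by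
    have h := hv t 0 ht
    rw [htr t ht] at h
    linear_combination -h
  obtain ⟨a1, a3, a5, a7⟩ := odd_coeff (x := κ) (b1 := a 1) (b3 := a 3) (b5 := a 5) (b7 := a 7)
    fun t s ht => by
      have h := heven t s ht
      rw [hv t s ht, hv t (-s) ht] at h
      linear_combination -h / 2
  obtain ⟨t, s⟩ := p
  rw [hv t s hp, a0, a1, a2, a3, a4, a5, a6, a7, ← a8, poly8]
  field_simp
  ring

theorem zeroTrace : ZeroTraceStmt := fun κ hκ u hu hg hc heven htr p hp => by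
  rw [trace κ hκ u hu hg hc heven 0 (fun t ht => by rw [htr t ht, zero_mul]) p hp, zero_mul]

theorem poly8_eq_profile (κ t s : ℝ) (ht : t ≠ 0) :
    poly8 κ (t, s) = t ^ 4 * profile8 (s ^ 2 / (κ * t)) := by
  simp only [poly8, profile8, ← div_div]
  field_simp

theorem sign : SignStmt := by
  classical
  have hc : Continuous profile8 := by unfold profile8; fun_prop
  obtain ⟨q0, h0, e0⟩ := intermediate_value_Ioo' (show (0 : ℝ) ≤ 2 by norm_num) hc.continuousOn
    (show (0 : ℝ) ∈ Set.Ioo (profile8 2) (profile8 0) by norm_num [profile8])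
  obtain ⟨q1, h1, e1⟩ := intermediate_value_Ioo (show (2 : ℝ) ≤ 10 by norm_num) hc.continuousOn
    (show (0 : ℝ) ∈ Set.Ioo (profile8 2) (profile8 10) by norm_num [profile8])
  obtain ⟨q2, h2, e2⟩ := intermediate_value_Ioo' (show (10 : ℝ) ≤ 20 by norm_num) hc.continuousOn
    (show (0 : ℝ) ∈ Set.Ioo (profile8 20) (profile8 10) by norm_num [profile8])
  obtain ⟨q3, h3, e3⟩ := intermediate_value_Ioo (show (20 : ℝ) ≤ 50 by norm_num) hc.continuousOn
    (show (0 : ℝ) ∈ Set.Ioo (profile8 20) (profile8 50) by norm_num [profile8])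
  simp only [Set.mem_Ioo] at h0 h1 h2 h3
  let P : Polynomial ℝ := Polynomial.C 1680 *
    (Polynomial.C 1 - Polynomial.C 2 * Polynomial.X + Polynomial.C (1 / 2) * Polynomial.X ^ 2 -
      Polynomial.C (1 / 30) * Polynomial.X ^ 3 + Polynomial.C (1 / 1680) * Polynomial.X ^ 4) -
    (Polynomial.X - Polynomial.C q0) * (Polynomial.X - Polynomial.C q1) *
      (Polynomial.X - Polynomial.C q2) * (Polynomial.X - Polynomial.C q3)
  have hP : ∀ x, P.eval x = 1680 * profile8 x - (x - q0) * (x - q1) * (x - q2) * (x - q3) := by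
    intro x
    simp [P, profile8]
    ring
  have hdeg : P.natDegree ≤ 3 := by
    refine Polynomial.natDegree_le_iff_coeff_eq_zero.2 fun n hn => ?_
    have e : P = Polynomial.C (-56 + (q0 + q1 + q2 + q3)) * Polynomial.X ^ 3 +
        Polynomial.C (840 - (q0 * q1 + q0 * q2 + q0 * q3 + q1 * q2 + q1 * q3 + q2 * q3)) *
          Polynomial.X ^ 2 +
        Polynomial.C (-3360 + (q0 * q1 * q2 + q0 * q1 * q3 + q0 * q2 * q3 + q1 * q2 * q3)) *
          Polynomial.X + Polynomial.C (1680 - q0 * q1 * q2 * q3) := by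
      refine Polynomial.funext fun x => ?_
      simp [P]
      ring
    rw [e]
    simp only [Polynomial.coeff_add, Polynomial.coeff_C_mul, Polynomial.coeff_X_pow,
      Polynomial.coeff_X, Polynomial.coeff_C]
    simp [show n ≠ 3 by omega, show n ≠ 2 by omega, show ¬ 1 = n by omega, show n ≠ 0 by omega]
  have hzero : P = 0 := by
    refine Polynomial.eq_zero_of_natDegree_lt_card_of_eval_eq_zero P (ι := Fin 4)
      (f := ![q0, q1, q2, q3]) (StrictMono.injective (Fin.strictMono_iff_lt_succ.2 fun i => ?_))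
      (fun i => ?_) (by simpa using Nat.lt_succ_of_le hdeg)
    · fin_cases i <;> simp <;> linarith
    · fin_cases i <;> simp [hP, e0, e1, e2, e3]
  refine ⟨![q0, q1, q2, q3], Fin.strictMono_iff_lt_succ.2 fun i => ?_, by simpa using h0.1,
    fun x => ?_⟩
  · fin_cases i <;> simp <;> linarith
  · have := hP x
    rw [hzero] at this
    simp at this ⊢
    linarith

end Vale.Agent.P363.Caloric
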