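import Mathlib

/-!
Backward caloric functions of one space variable: vocabulary and the Liouville statements.
A point is `(t, s)`; the equation is `∂ₜ u + κ ∂ₛ² u = 0` on `t > 0`.
-/

noncomputable section

namespace Vale.Agent.P363.Caloric

open MeasureTheory

/-- The open upper half plane `t > 0`. -/
def upper : Set (ℝ × ℝ) := {p | 0 < p.1}

/-- The operator adjoint to `∂ₜ + κ ∂ₛ²`. -/
def adjHeat (κ : ℝ) (η : ℝ × ℝ → ℝ) (p : ℝ × ℝ) : ℝ :=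
  -fderiv ℝ η p (1, 0) + κ * fderiv ℝ (fun q => fderiv ℝ η q (0, 1)) p (0, 1)

/-- Test functions in the upper half plane. -/
structure IsTest2 (η : ℝ × ℝ → ℝ) : Prop where
  smooth : ContDiff ℝ ((⊤ : ℕ∞) : WithTop ℕ∞) η
  compact : HasCompactSupport η
  supp : tsupport η ⊆ upper

/-- Weak solutions of `∂ₜ u + κ ∂ₛ² u = 0` in the upper half plane. -/
def IsBackCaloric (κ : ℝ) (u : ℝ × ℝ → ℝ) : Prop :=
  LocallyIntegrableOn u upper ∧ ∀ η, IsTest2 η → ∫ p, u p * adjHeat κ η p = 0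

/-- Weak solutions on an open set. -/
def IsBackCaloricOn (κ : ℝ) (U : Set (ℝ × ℝ)) (u : ℝ × ℝ → ℝ) : Prop :=
  LocallyIntegrableOn u U ∧ ∀ η : ℝ × ℝ → ℝ, ContDiff ℝ ((⊤ : ℕ∞) : WithTop ℕ∞) η →
    HasCompactSupport η → tsupport η ⊆ U → ∫ p, u p * adjHeat κ η p = 0

/-- Parabolic growth of degree at most eight. -/
def HasGrowth8 (u : ℝ × ℝ → ℝ) : Prop :=
  ∃ C : ℝ, ∀ᵐ p ∂volume.restrict upper, |u p| ≤ C * (1 + |p.2| + Real.sqrt p.1) ^ 8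

/-- The backward heat polynomial of parabolic degree `k` with leading term `sᵏ`. -/
def heatPoly (κ : ℝ) (k : ℕ) (p : ℝ × ℝ) : ℝ :=
  ∑ j ∈ Finset.range (k / 2 + 1),
    (k.factorial : ℝ) / (j.factorial * (k - 2 * j).factorial) * (-κ * p.1) ^ j * p.2 ^ (k - 2 * j)

/-- The even profile in `q = s² / (κ t)`. -/
def profile8 (q : ℝ) : ℝ := 1 - 2 * q + q ^ 2 / 2 - q ^ 3 / 30 + q ^ 4 / 1680

/-- The even backward caloric polynomial with trace `t⁴` on `s = 0`. -/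
def poly8 (κ : ℝ) (p : ℝ × ℝ) : ℝ :=
  p.1 ^ 4 - 2 * p.1 ^ 3 * (p.2 ^ 2 / κ) + p.1 ^ 2 * (p.2 ^ 2 / κ) ^ 2 / 2 -
    p.1 * (p.2 ^ 2 / κ) ^ 3 / 30 + (p.2 ^ 2 / κ) ^ 4 / 1680

/-- Liouville: weak backward caloric functions of growth eight are caloric polynomials. -/
def LiouvilleStmt : Prop :=
  ∀ κ : ℝ, 0 < κ → ∀ u, IsBackCaloric κ u → HasGrowth8 u →
    ∃ a : Fin 9 → ℝ, ∀ᵐ p ∂volume.restrict upper, u p = ∑ k : Fin 9, a k * heatPoly κ k p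

/-- A continuous even solution of growth eight with trace `c t⁴` is `c` times `poly8`. -/
def TraceStmt : Prop :=
  ∀ κ : ℝ, 0 < κ → ∀ u, IsBackCaloric κ u → HasGrowth8 u → ContinuousOn u upper →
    (∀ t s : ℝ, 0 < t → u (t, -s) = u (t, s)) → ∀ c : ℝ, (∀ t : ℝ, 0 < t → u (t, 0) = c * t ^ 4) →
      ∀ p ∈ upper, u p = c * poly8 κ p

/-- A continuous even solution of growth eight vanishing on `s = 0` is zero. -/
def ZeroTraceStmt : Prop :=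
  ∀ κ : ℝ, 0 < κ → ∀ u, IsBackCaloric κ u → HasGrowth8 u → ContinuousOn u upper →
    (∀ t s : ℝ, 0 < t → u (t, -s) = u (t, s)) → (∀ t : ℝ, 0 < t → u (t, 0) = 0) →
      ∀ p ∈ upper, u p = 0

/-- Liouville on a half line `t > t₀`. -/
def LiouvilleFromStmt : Prop :=
  ∀ κ t₀ : ℝ, 0 < κ → 0 ≤ t₀ → ∀ u : ℝ × ℝ → ℝ, IsBackCaloricOn κ {p | t₀ < p.1} u →
    (∃ C : ℝ, ∀ᵐ p ∂volume.restrict {p : ℝ × ℝ | t₀ < p.1},
      |u p| ≤ C * (1 + |p.2| + Real.sqrt p.1) ^ 8) →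
    ∃ a : Fin 9 → ℝ, ∀ᵐ p ∂volume.restrict {p : ℝ × ℝ | t₀ < p.1},
      u p = ∑ k : Fin 9, a k * heatPoly κ k p

/-- The backward heat semigroup represents continuous solutions in a strip. -/
def RepStmt : Prop :=
  ∀ κ t₁ t₂ : ℝ, 0 < κ → ∀ u : ℝ × ℝ → ℝ,
    IsBackCaloricOn κ (Set.Ioo t₁ t₂ ×ˢ Set.univ) u → ContinuousOn u (Set.Ioo t₁ t₂ ×ˢ Set.univ) →
    ∀ C : ℝ, (∀ p ∈ Set.Ioo t₁ t₂ ×ˢ Set.univ, |u p| ≤ C * (1 + |p.2| + Real.sqrt |p.1|) ^ 8) →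
    ∀ τ σ s : ℝ, t₁ < τ → τ ≤ σ → σ < t₂ →
      u (τ, s) = ∫ z, u (σ, s + Real.sqrt (2 * κ * (σ - τ)) * z)
        ∂ProbabilityTheory.gaussianReal 0 1

/-- The profile has four simple positive roots and alternates in sign between them. -/
def SignStmt : Prop :=
  ∃ q : Fin 4 → ℝ, StrictMono q ∧ 0 < q 0 ∧
    ∀ x : ℝ, profile8 x = (x - q 0) * (x - q 1) * (x - q 2) * (x - q 3) / 1680

end Vale.Agent.P363.Caloric
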