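import Vale.Agent.P363.Caloric.Spec
import Vale.Agent.P146.Calc

/-!
Smooth backward caloric functions of parabolic growth eight are caloric polynomials.
-/

noncomputable section

namespace Vale.Agent.P363.Caloric

open MeasureTheory ProbabilityTheory Filter
open scoped Topology

/-- The parabolic size of a point. -/
def size (p : ℝ × ℝ) : ℝ := 1 + |p.2| + Real.sqrt |p.1|

theorem one_le_size (p : ℝ × ℝ) : 1 ≤ size p := by
  have := abs_nonneg p.2
  have := Real.sqrt_nonneg |p.1|
  unfold size
  linarith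

theorem continuous_size : Continuous size := by unfold size; fun_prop

/-- A function with all its space derivatives, of growth eight. -/
structure Family (W : ℕ → ℝ × ℝ → ℝ) : Prop where
  diff : ∀ k, Differentiable ℝ (W k)
  ds : ∀ k p, fderiv ℝ (W k) p (0, 1) = W (k + 1) p
  bd : ∀ k, ∃ C, ∀ p, |W k p| ≤ C * size p ^ 8

/-- A smooth solution on `t ≥ 0` with all its space derivatives. -/
structure Tower (κ : ℝ) (W : ℕ → ℝ × ℝ → ℝ) : Prop extends Family W where
  dt : ∀ k (p : ℝ × ℝ), 0 ≤ p.1 → fderiv ℝ (W k) p (1, 0) = -κ * W (k + 2) p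

variable {κ : ℝ} {W : ℕ → ℝ × ℝ → ℝ}

theorem Family.hasDerivAt_space (h : Family W) (k : ℕ) (t s : ℝ) :
    HasDerivAt (fun x => W k (t, x)) (W (k + 1) (t, s)) s := by
  have := (h.diff k (t, s)).hasFDerivAt.comp_hasDerivAt s
    ((hasDerivAt_const s t).prodMk (hasDerivAt_id s))
  rw [h.ds] at this
  exact this

theorem Tower.hasDerivAt_time (h : Tower κ W) (k : ℕ) {t : ℝ} (ht : 0 ≤ t) (s : ℝ) :
    HasDerivAt (fun x => W k (x, s)) (-κ * W (k + 2) (t, s)) t := by
  have := (h.diff k (t, s)).hasFDerivAt.comp_hasDerivAt t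
    ((hasDerivAt_id t).prodMk (hasDerivAt_const t s))
  rw [h.dt k (t, s) ht] at this
  exact this

theorem integrable_pow_gauss (n : ℕ) :
    Integrable (fun z : ℝ => (1 + |z|) ^ n) (gaussianReal 0 1) := by
  refine integrable_pow_of_memLp ?_ n
  intro p
  exact (memLp_const (1 : ℝ)).add (memLp_id_gaussianReal p).norm
where
  integrable_pow_of_memLp {f : ℝ → ℝ} (hf : ∀ p : NNReal, MemLp f p (gaussianReal 0 1)) (n : ℕ) :
      Integrable (fun z => f z ^ n) (gaussianReal 0 1) := by
    rcases eq_or_ne n 0 with rfl | hn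
    · simp
    · have h := (hf n).integrable_norm_pow (p := n) hn
      refine h.mono' (((hf 1).aestronglyMeasurable).pow n) ?_
      exact Eventually.of_forall fun z => by rw [norm_pow]

theorem size_heat_le {t s c D z : ℝ} (hc : |c| ≤ D) (hD : 1 ≤ D) :
    size (t, s + c * z) ≤ D * size (t, s) * (1 + |z|) := by
  have h1 : |s + c * z| ≤ |s| + D * |z| := by
    refine (abs_add_le _ _).trans (add_le_add le_rfl ?_)
    rw [abs_mul]
    gcongr
  have h2 := one_le_size (t, s)
  simp only [size] at h2 ⊢
  have h3 : (1 + |s| + Real.sqrt |t|) * 1 ≤ (1 + |s| + Real.sqrt |t|) * D :=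
    mul_le_mul_of_nonneg_left hD (by linarith)
  have h4 : 0 ≤ D * |z| * (|s| + Real.sqrt |t|) :=
    mul_nonneg (mul_nonneg (by linarith) (abs_nonneg z)) (by linarith [abs_nonneg s, Real.sqrt_nonneg |t|])
  linear_combination h1 + h3 + h4

theorem Family.integrable_shift (h : Family W) (k j : ℕ) (t s c : ℝ) :
    Integrable (fun z => |z| ^ j * |W k (t, s + c * z)|) (gaussianReal 0 1) := by
  obtain ⟨C, hC⟩ := h.bd k
  refine ((integrable_pow_gauss (j + 8)).const_mul
    (C * ((|c| + 1) * size (t, s)) ^ 8)).mono' ?_ (Eventually.of_forall fun z => ?_)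
  · exact ((continuous_abs.pow j).mul (continuous_abs.comp ((h.diff k).continuous.comp
      (by fun_prop)))).aestronglyMeasurable
  · rw [norm_mul, norm_pow, Real.norm_eq_abs, abs_abs, Real.norm_eq_abs, abs_abs]
    have h0 : 0 ≤ C := by
      have := hC (t, s)
      have h8 : 0 < size (t, s) ^ 8 := pow_pos (one_pos.trans_le (one_le_size _)) 8
      nlinarith [abs_nonneg (W k (t, s))]
    calc |z| ^ j * |W k (t, s + c * z)| ≤ (1 + |z|) ^ j * (C * size (t, s + c * z) ^ 8) :=
          mul_le_mul (pow_le_pow_left₀ (abs_nonneg z) (by linarith) j) (hC _) (abs_nonneg _)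
            (by positivity)
      _ ≤ (1 + |z|) ^ j * (C * ((|c| + 1) * size (t, s) * (1 + |z|)) ^ 8) := by
          have := (one_le_size (t, s + c * z)).trans' zero_le_one
          gcongr
          exact size_heat_le (by linarith) (by linarith [abs_nonneg c])
      _ = _ := by ring

theorem Family.integrable_comp (h : Family W) (k : ℕ) (t s c : ℝ) :
    Integrable (fun z => W k (t, s + c * z)) (gaussianReal 0 1) := by
  refine (h.integrable_shift k 0 t s c).mono'
    ((h.diff k).continuous.comp (by fun_prop)).aestronglyMeasurable (Eventually.of_forall fun z => ?_)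
  simp

theorem Family.integrable_mul_comp (h : Family W) (k : ℕ) (t s c : ℝ) :
    Integrable (fun z => z * W k (t, s + c * z)) (gaussianReal 0 1) := by
  refine (h.integrable_shift k 1 t s c).mono'
    (continuous_id.mul ((h.diff k).continuous.comp (by fun_prop))).aestronglyMeasurable
    (Eventually.of_forall fun z => ?_)
  simp

/-- Gaussian integration by parts along the space variable. -/
theorem Family.ibp (h : Family W) (k : ℕ) (t s c : ℝ) :
    ∫ z, z * W k (t, s + c * z) ∂gaussianReal 0 1 =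
      c * ∫ z, W (k + 1) (t, s + c * z) ∂gaussianReal 0 1 := by
  rw [← integral_const_mul]
  refine Vale.Agent.P146.gauss_ibp_one (fun z => ?_) (h.integrable_comp k t s c)
    ((h.integrable_comp (k + 1) t s c).const_mul c) (h.integrable_mul_comp k t s c)
  have := (h.hasDerivAt_space k t (s + c * z)).comp z
    (((hasDerivAt_id z).const_mul c).const_add s)
  simpa [mul_comm, Function.comp_def] using this

/-- The representation by the backward heat semigroup. -/
theorem Family.rep (hκ : 0 < κ) (h : Family W) (k : ℕ) {τ σ : ℝ} (hσ : τ ≤ σ)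
    (hdt : ∀ p : ℝ × ℝ, τ ≤ p.1 → p.1 ≤ σ → fderiv ℝ (W k) p (1, 0) = -κ * W (k + 2) p)
    (s : ℝ) : W k (τ, s) =
      ∫ z, W k (σ, s + Real.sqrt (2 * κ * (σ - τ)) * z) ∂gaussianReal 0 1 := by
  set c : ℝ → ℝ := fun t => Real.sqrt (2 * κ * (t - τ)) with hc
  set φ : ℝ → ℝ := fun t => ∫ z, W k (t, s + c t * z) ∂gaussianReal 0 1 with hφ
  obtain ⟨C0, hC0⟩ := h.bd k
  obtain ⟨C1, hC1⟩ := h.bd (k + 1)
  obtain ⟨C2, hC2⟩ := h.bd (k + 2)
  have hpos : ∀ {m : ℕ} {C : ℝ}, (∀ p, |W m p| ≤ C * size p ^ 8) → 0 ≤ C := by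
    intro m C hC
    have := hC (0, 0)
    have h8 : 0 < size (0, 0) ^ 8 := pow_pos (one_pos.trans_le (one_le_size _)) 8
    nlinarith [abs_nonneg (W m (0, 0))]
  -- a bound on bounded time intervals
  have hbox : ∀ T : ℝ, ∃ D : ℝ, 0 ≤ D ∧ ∀ t, τ ≤ t → t ≤ T → ∀ z : ℝ,
      size (t, s + c t * z) ≤ D * (1 + |z|) := by
    intro T
    refine ⟨(c T + 1) * (1 + |s| + Real.sqrt (max |τ| |T|)), by positivity,
      fun t h1 h2 z => ?_⟩
    refine (size_heat_le (D := c T + 1) ?_ (by simp [hc])).trans ?_
    · rw [hc, abs_of_nonneg (Real.sqrt_nonneg _)]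
      refine le_add_of_le_of_nonneg (Real.sqrt_le_sqrt ?_) zero_le_one
      nlinarith
    · have : size (t, s) ≤ 1 + |s| + Real.sqrt (max |τ| |T|) := by
        simp only [size]
        gcongr
        exact abs_le_max_abs_abs h1 h2
      gcongr
  have hcont : ContinuousOn φ (Set.Icc τ σ) := by
    obtain ⟨D, hD, hb⟩ := hbox σ
    refine continuousOn_of_dominated
      (bound := fun z => C0 * D ^ 8 * (1 + |z|) ^ 8) (fun t _ =>
        (h.integrable_comp k t s (c t)).aestronglyMeasurable) (fun t ht => ?_)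
      ((integrable_pow_gauss 8).const_mul _) (Eventually.of_forall fun z => ?_)
    · refine Eventually.of_forall fun z => ?_
      rw [Real.norm_eq_abs, mul_assoc, ← mul_pow]
      refine (hC0 _).trans (mul_le_mul_of_nonneg_left ?_ (hpos hC0))
      exact pow_le_pow_left₀ (zero_le_one.trans (one_le_size _)) (hb t ht.1 ht.2 z) 8
    · exact ((h.diff k).continuous.comp (by fun_prop)).continuousOn
  have hder : ∀ t ∈ Set.Ioo τ σ, HasDerivAt φ 0 t := by
    intro t ht
    obtain ⟨D, hD, hb⟩ := hbox σ
    set d : ℝ → ℝ := fun t => κ / c t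
    have hcd : ∀ x, τ < x → HasDerivAt c (d x) x := by
      intro x hx
      have hp : 2 * κ * (x - τ) ≠ 0 := by
        have : 0 < x - τ := sub_pos.2 hx
        positivity
      refine ((((hasDerivAt_id x).sub_const τ).const_mul (2 * κ)).sqrt hp).congr_deriv ?_
      simp only [d, hc, id, mul_one]
      field_simp
    set a := (τ + t) / 2
    have ha : τ < a := by simp only [a]; linarith [ht.1]
    have hat : a < t := by simp only [a]; linarith [ht.1]
    have hd' : ∀ x ∈ Set.Ioo a σ, ∀ z, HasDerivAt (fun x => W k (x, s + c x * z))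
        (-κ * W (k + 2) (x, s + c x * z) + d x * z * W (k + 1) (x, s + c x * z)) x := by
      intro x hx z
      have := (h.diff k (x, s + c x * z)).hasFDerivAt.comp_hasDerivAt x
        ((hasDerivAt_id x).prodMk (((hcd x (ha.trans hx.1)).mul_const z).const_add s))
      refine this.congr_deriv ?_
      rw [show ((1 : ℝ), d x * z) = (1, 0) + (d x * z) • ((0 : ℝ), (1 : ℝ)) by simp,
        map_add, map_smul, hdt _ (ha.trans hx.1).le hx.2.le, h.ds, smul_eq_mul]
    have hbound : ∀ x ∈ Set.Ioo a σ, ∀ z,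
        ‖-κ * W (k + 2) (x, s + c x * z) + d x * z * W (k + 1) (x, s + c x * z)‖ ≤
          (κ * (C2 * D ^ 8) + d a * (C1 * D ^ 8)) * (1 + |z|) ^ 9 := by
      intro x hx z
      have hz : size (x, s + c x * z) ^ 8 ≤ D ^ 8 * (1 + |z|) ^ 8 := by
        rw [← mul_pow]
        exact pow_le_pow_left₀ (zero_le_one.trans (one_le_size _))
          (hb x (ha.trans hx.1).le hx.2.le z) 8
      have hdx : 0 ≤ d x ∧ d x ≤ d a := by
        have hca : 0 < c a := Real.sqrt_pos.2 (mul_pos (by linarith) (sub_pos.2 ha))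
        have hcx : c a ≤ c x := Real.sqrt_le_sqrt (by nlinarith [hx.1])
        exact ⟨div_nonneg hκ.le (hca.le.trans hcx), div_le_div_of_nonneg_left hκ.le hca hcx⟩
      rw [Real.norm_eq_abs]
      refine (abs_add_le _ _).trans ?_
      rw [abs_mul, abs_mul, abs_mul, abs_neg, abs_of_pos hκ, abs_of_nonneg hdx.1, add_mul]
      have h89 : (1 + |z|) ^ 8 ≤ (1 + |z|) ^ 9 :=
        pow_le_pow_right₀ (by linarith [abs_nonneg z]) (by norm_num)
      have h2 := hpos hC2
      have h1 := hpos hC1
      refine add_le_add ?_ ?_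
      · calc κ * |W (k + 2) (x, s + c x * z)| ≤ κ * (C2 * (D ^ 8 * (1 + |z|) ^ 9)) := by
              refine mul_le_mul_of_nonneg_left ((hC2 _).trans ?_) hκ.le
              exact mul_le_mul_of_nonneg_left (hz.trans (by gcongr)) h2
          _ = _ := by ring
      · calc d x * |z| * |W (k + 1) (x, s + c x * z)|
            ≤ d a * (1 + |z|) * (C1 * (D ^ 8 * (1 + |z|) ^ 8)) := by
              refine mul_le_mul ?_ ((hC1 _).trans (mul_le_mul_of_nonneg_left hz h1))
                (abs_nonneg _) ?_
              · exact mul_le_mul hdx.2 (by linarith) (abs_nonneg z) (hdx.1.trans hdx.2)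
              · exact mul_nonneg (hdx.1.trans hdx.2) (by positivity)
          _ = _ := by ring
    have key := (hasDerivAt_integral_of_dominated_loc_of_deriv_le
      (F := fun x z => W k (x, s + c x * z))
      (F' := fun x z => -κ * W (k + 2) (x, s + c x * z) + d x * z * W (k + 1) (x, s + c x * z))
      (bound := fun z => (κ * (C2 * D ^ 8) + d a * (C1 * D ^ 8)) * (1 + |z|) ^ 9)
      (μ := gaussianReal 0 1) (Ioo_mem_nhds hat ht.2)
      (Eventually.of_forall fun x => (h.integrable_comp k x s (c x)).aestronglyMeasurable)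
      (h.integrable_comp k t s (c t))
      (((h.integrable_comp (k + 2) t s (c t)).const_mul (-κ)).add
        (((h.integrable_mul_comp (k + 1) t s (c t)).const_mul (d t)).congr
          (Eventually.of_forall fun z => by ring))).aestronglyMeasurable
      (Eventually.of_forall fun z x hx => hbound x hx z)
      ((integrable_pow_gauss 9).const_mul _)
      (Eventually.of_forall fun z x hx => hd' x hx z)).2
    refine key.congr_deriv ?_
    have hct : c t ≠ 0 := by
      have : 0 < t - τ := sub_pos.2 ht.1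
      exact (Real.sqrt_pos.2 (by positivity)).ne'
    simp only [mul_assoc (d t)]
    rw [integral_add ((h.integrable_comp (k + 2) t s (c t)).const_mul _)
      ((h.integrable_mul_comp (k + 1) t s (c t)).const_mul _), integral_const_mul,
      integral_const_mul, h.ibp, ← mul_assoc, show d t * c t = κ by simp [d, hct]]
    ring
  have hconst : φ σ = φ τ := by
    rcases eq_or_lt_of_le hσ with rfl | hlt
    · rfl
    · obtain ⟨y, -, he⟩ := exists_hasDerivAt_eq_slope φ (fun _ => 0) hlt hcont hder
      rw [eq_div_iff (sub_pos.2 hlt).ne', zero_mul] at he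
      linarith
  rw [show (∫ z, W k (σ, s + Real.sqrt (2 * κ * (σ - τ)) * z) ∂gaussianReal 0 1) = φ σ from rfl,
    hconst]
  simp [hφ, hc]

theorem Tower.rep (hκ : 0 < κ) (h : Tower κ W) (k : ℕ) {τ σ : ℝ} (hτ : 0 ≤ τ) (hσ : τ ≤ σ)
    (s : ℝ) : W k (τ, s) =
      ∫ z, W k (σ, s + Real.sqrt (2 * κ * (σ - τ)) * z) ∂gaussianReal 0 1 :=
  h.toFamily.rep hκ k hσ (fun p hp _ => h.dt k p (hτ.trans hp)) s

end Vale.Agent.P363.Caloric
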